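import Vale.Agent.P312.Main

namespace Vale.Agent.Results.P312.TwoFifths

open Vale.Agent.P312

theorem result :
    (∃ δ : ℝ, 0 < δ ∧ ∀ (A : Type) [Fintype A] (t : ℕ → ℕ), (∀ n, n ≤ t n) →
      TIME1 A t ⊆ SPACE A (fun n => (t n : ℝ) ^ (1 / 2 - δ))) ∧
    (∀ e : ℝ, 2 / 5 < e → ∀ (A : Type) [Fintype A] (t : ℕ → ℕ), (∀ n, n ≤ t n) →
      TIME1 A t ⊆ SPACE A (fun n => (t n : ℝ) ^ e)) ∧
    (∀ (A : Type) [Fintype A] (t : ℕ → ℕ), (∀ n, n ≤ t n) →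
      TIME1 A t ⊆ SPACE A (fun n => (t n : ℝ) ^ (2 / 5 : ℝ) * Real.log (t n) ^ 2)) :=
  ⟨⟨1 / 20, by norm_num, fun A _ t ht => time1_subset_space_pow A t ht _ (by norm_num)⟩,
    fun e he A _ t ht => time1_subset_space_pow A t ht e he,
    fun A _ t ht => time1_subset_space A t ht _ 1 fun _ _ => by rw [one_mul]⟩

end Vale.Agent.Results.P312.TwoFifths
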